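import Vale.Agent.P011.D4H.Defs
import Vale.Agent.P011.D4T.HFinOf
import Vale.Agent.P011.E6I.H64.Real
import Vale.Agent.P011.D4X.H408.Top

/-!
The group of permutations and the group of linear maps; the data and the model.
-/

open Module NumberField

namespace Vale.Agent.P011.D4H

open Vale.Agent.P011.MPQ Vale.Agent.P011.D4 Vale.Agent.P011.D4.Oct Vale.Agent.P011.D4T
open scoped ComplexConjugate

theorem on_eq {F : Type} [Field F] {a b c : Fˣ} (w : F →+* ℂ) (x : Oct a b c) :
    D4X.on w x = onm w x := by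
  simp only [D4X.on, D4X.co8, Fin.sum_univ_eight, onm, qnm]
  simp only [Matrix.cons_val_zero, Matrix.cons_val_one, Matrix.cons_val]
  ring

section hom

variable {k L E : Type} [Field k] [Field L] [Field E] [Algebra k L] [Algebra k E] [Algebra L E]
  [IsScalarTower k L E] {ρ σ : E ≃ₐ[k] E} {α : E} {a b c : kˣ} {q : Lˣ}

/-- The statement for the permutations from the statement for the linear maps. -/
theorem openAt_tt {S : (E →+* ℂ) → Prop}
    (h : ∀ N : Subgroup (GT ρ σ α a b c q), N.index ≠ 0 → ∃ ε : ℝ, 0 < ε ∧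
      ∀ x : GT ρ σ α a b c q, (∀ w, S w → ∀ y, onm w (x.1 y - y) ≤ ε * onm w y) → x ∈ N) :
    OpenAt S (TT ρ σ α (algebraMap L E (q : L)) a b c) := by
  intro N hN
  obtain ⟨ε, h0, h1⟩ := h (N.comap (toTT (ρ := ρ) (σ := σ) (α := α) (a := a) (b := b) (c := c)
    (q := q))) (by
      rw [Subgroup.index_comap_of_surjective _ toTT_surjective]
      exact hN)
  refine ⟨ε, h0, fun x hx => ?_⟩
  obtain ⟨y, rfl⟩ := toTT_surjective x
  exact h1 y hx

end hom

section data

variable {k E : Type} [Field k] [Field E] [Algebra k E] {ρ σ : E ≃ₐ[k] E} {α q : E} {a b c : kˣ}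

theorem IsDataR.finite (H : IsDataR ρ σ α q a b c) : FiniteDimensional k E :=
  Module.finite_of_finrank_pos (by rw [H.deg]; norm_num)

theorem IsDataR.α0 (H : IsDataR ρ σ α q a b c) : α ≠ 0 := by
  intro h
  have h1 := H.α2
  rw [h, zero_pow two_ne_zero] at h1
  exact a.ne_zero ((map_eq_zero _).mp h1.symm)

theorem IsDataR.q0 (H : IsDataR ρ σ α q a b c) : q ≠ 0 := by
  intro h
  have h1 := H.nq
  rw [h, zero_mul, zero_mul] at h1
  exact zero_ne_one h1

theorem IsDataR.h2 [NeZero (2 : E)] (H : IsDataR ρ σ α q a b c) : finrank (LL σ) E = 2 := by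
  have := H.finite
  have h1 : σ ≠ 1 := by
    intro h
    have h1 := H.σα
    rw [h, AlgEquiv.one_apply] at h1
    have h2 : (2 : E) * α = 0 := by linear_combination h1
    exact H.α0 ((mul_eq_zero.mp h2).resolve_left (NeZero.ne 2))
  have h2 : orderOf σ = 2 := orderOf_eq_prime (by
    apply AlgEquiv.ext
    intro x
    exact H.σ2 x) h1
  have h3 := IntermediateField.finrank_fixedField_eq_card (F := k) (E := E) (Subgroup.zpowers σ)
  rwa [Nat.card_zpowers, h2] at h3

theorem IsDataR.h3 [NeZero (2 : E)] (H : IsDataR ρ σ α q a b c) : finrank k (LL σ) = 3 := by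
  have := H.finite
  have h1 := Module.finrank_mul_finrank k (LL σ) E
  rw [H.h2, H.deg] at h1
  omega

/-- The element `q` of the fixed field. -/
noncomputable def IsDataR.qL (H : IsDataR ρ σ α q a b c) : (LL σ)ˣ :=
  Units.mk0 ⟨q, mem_LL.mpr H.σq⟩ fun h => H.q0 (congrArg Subtype.val h)

theorem IsDataR.algebraMap_qL (H : IsDataR ρ σ α q a b c) :
    algebraMap (LL σ) E (H.qL : LL σ) = q := rfl

theorem IsDataR.rhoL_ne [NeZero (2 : E)] (H : IsDataR ρ σ α q a b c) :
    rhoL H.comm H.ρ3 ≠ 1 := by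
  have h2 : (2 : E) ≠ 0 := NeZero.ne 2
  intro h
  obtain ⟨x, hx⟩ := H.ρ1
  have hL : ∀ u : E, σ u = u → ρ u = u := by
    intro u hu
    have h1 := congrArg (fun f : LL σ ≃ₐ[k] LL σ => (f ⟨u, mem_LL.mpr hu⟩ : E)) h
    exact h1
  apply hx
  have hα := H.α0
  have e1 : x = (x + σ x) / 2 + (x - σ x) / (2 * α) * α := by
    field_simp
    ring
  have e2 : σ (2 : E) = 2 := map_ofNat σ 2
  have u1 : σ ((x + σ x) / 2) = (x + σ x) / 2 := by
    rw [map_div₀, map_add, H.σ2, e2, add_comm]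
  have u2 : σ ((x - σ x) / (2 * α)) = (x - σ x) / (2 * α) := by
    rw [map_div₀, map_sub, map_mul, H.σ2, e2, H.σα]
    field_simp
    ring
  conv_lhs => rw [e1, map_add, map_mul, hL _ u1, hL _ u2, H.ρα]
  exact e1.symm

/-- The octonion algebra is definite at the real places where `a` is negative. -/
theorem IsDataR.defL (H : IsDataR ρ σ α q a b c) (w : LL σ →+* ℝ)
    (hw : w (algebraMap k (LL σ) a) < 0) :
    w (algebraMap k (LL σ) b) < 0 ∧ w (algebraMap k (LL σ) c) < 0 :=
  H.hdef (w.comp (algebraMap k (LL σ))) hw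

/-- One compact place. -/
theorem IsDataR.cptL (H : IsDataR ρ σ α q a b c) : ∃ τ : k →+* ℝ, τ a < 0 ∧
    ∀ w : LL σ →+* ℝ, (∀ t, w (algebraMap k (LL σ) t) = τ t) → 0 < w (H.qL : LL σ) := by
  have hfin := H.finite
  obtain ⟨τ, h1, h2⟩ := H.cpt
  refine ⟨τ, h1, fun w hw => ?_⟩
  have halg : Algebra.IsAlgebraic (LL σ) E := Algebra.IsAlgebraic.of_finite (LL σ) E
  obtain ⟨W, hW⟩ := exists_lift (E := E) w
  have h4 := h2 W fun t => by
    rw [← hw]
    exact hW (algebraMap k (LL σ) t)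
  have h5 : W q = ((w (H.qL : LL σ) : ℝ) : ℂ) := hW (H.qL : LL σ)
  rw [h5, Complex.ofReal_re] at h4
  exact h4

/-- One compact place, as an embedding of the cubic field. -/
theorem IsDataR.cptL' [NumberField k] (H : IsDataR ρ σ α q a b c) : ∃ w : LL σ →+* ℝ,
    w (algebraMap k (LL σ) a) < 0 ∧ 0 < w (H.qL : LL σ) ∧ 0 < w (rhoL H.comm H.ρ3 (H.qL : LL σ)) ∧
      0 < w (rhoL H.comm H.ρ3 (rhoL H.comm H.ρ3 (H.qL : LL σ))) := by
  have hfin := H.finite
  have h2 : NeZero (2 : E) := by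
    have := NumberField.of_module_finite k E
    infer_instance
  obtain ⟨τ, h1, h3⟩ := H.cptL
  obtain ⟨w, hw'⟩ := E6I.exists_real_over H.h3 τ
  have hw : ∀ t, w (algebraMap k (LL σ) t) = τ t := fun t => congrArg (fun f : k →+* ℝ => f t) hw'
  refine ⟨w, by rw [hw]; exact h1, h3 w hw, ?_, ?_⟩
  · exact h3 (w.comp (rhoL H.comm H.ρ3 : LL σ →+* LL σ)) fun t => by
      rw [RingHom.comp_apply]
      refine Eq.trans ?_ (hw t)
      congr 1
      exact (rhoL H.comm H.ρ3).commutes t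
  · exact h3 ((w.comp (rhoL H.comm H.ρ3 : LL σ →+* LL σ)).comp
      (rhoL H.comm H.ρ3 : LL σ →+* LL σ)) fun t => by
      rw [RingHom.comp_apply, RingHom.comp_apply]
      refine Eq.trans ?_ (hw t)
      congr 1
      refine Eq.trans (congrArg (rhoL H.comm H.ρ3) ((rhoL H.comm H.ρ3).commutes t)) ?_
      exact (rhoL H.comm H.ρ3).commutes t

end data

end Vale.Agent.P011.D4H
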