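import Vale.Agent.P011.D4T.HDefs
import Mathlib.Analysis.Complex.Basic

/-!
Trialitarian groups: subgroups of finite index which are open at some complex embeddings.
-/

open Module NumberField

namespace Vale.Agent.P011.D4H

open Vale.Agent.P011.MPQ Vale.Agent.P011.D4 Vale.Agent.P011.D4T
open scoped ComplexConjugate

/-- The sum of the absolute values of the coordinates. -/
noncomputable def qnm {F : Type} [Field F] {a b : Fˣ} (w : F →+* ℂ) (x : Qt a b) : ℝ :=
  ‖w x.re‖ + ‖w x.imI‖ + ‖w x.imJ‖ + ‖w x.imK‖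

/-- The sum of the absolute values of the coordinates. -/
noncomputable def onm {F : Type} [Field F] {a b c : Fˣ} (w : F →+* ℂ) (x : Oct a b c) : ℝ :=
  qnm w x.fst + qnm w x.snd

/-- Every subgroup of finite index of `G` contains the elements of `G` which are close to the
identity at the embeddings `w` with the property `S`. -/
def OpenAt {F : Type} [Field F] {a b c : Fˣ} (S : (F →+* ℂ) → Prop)
    (G : Subgroup (Equiv.Perm (Oct a b c))) : Prop :=
  ∀ N : Subgroup G, N.index ≠ 0 → ∃ ε : ℝ, 0 < ε ∧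
    ∀ h : G, (∀ w, S w → ∀ x, onm w (h.1 x - x) ≤ ε * onm w x) → h ∈ N

variable {k E : Type} [Field k] [Field E] [Algebra k E]

/-- The data: `E / k` has degree six, `ρ` and `σ` are commuting automorphisms of orders three and
two, `α ^ 2 = a` with `ρ(α) = α` and `σ(α) = -α`, the element `q` is fixed by `σ` and has norm one
over the fixed field of `ρ`, the octonion algebra `(a, b, c)` over `k` is a division algebra,
definite at all real places of `k` where `a` is negative, and `q` is totally positive at one of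
them. -/
structure IsDataR (ρ σ : E ≃ₐ[k] E) (α q : E) (a b c : kˣ) : Prop where
  deg : finrank k E = 6
  ρ1 : ∃ x, ρ x ≠ x
  ρ3 : ∀ x, ρ (ρ (ρ x)) = x
  σ2 : ∀ x, σ (σ x) = x
  comm : ∀ x, σ (ρ x) = ρ (σ x)
  α2 : α ^ 2 = algebraMap k E a
  ρα : ρ α = α
  σα : σ α = -α
  σq : σ q = q
  nq : q * ρ q * ρ (ρ q) = 1
  div : Oct.Division a b c
  hdef : ∀ τ : k →+* ℝ, τ a < 0 → τ b < 0 ∧ τ c < 0
  cpt : ∃ τ : k →+* ℝ, τ a < 0 ∧ ∀ w : E →+* ℂ, (∀ t, w (algebraMap k E t) = τ t) → 0 < (w q).re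

/-- The embedding `w` lies over a real place of `k` where `a` is negative and `q` is not totally
positive. -/
def BadT (ρ σ : E ≃ₐ[k] E) (q : E) (w : E →+* ℂ) : Prop :=
  (∀ x, w (σ x) = conj (w x)) ∧
    ¬ (0 < (w q).re ∧ 0 < (w (ρ q)).re ∧ 0 < (w (ρ (ρ q))).re)

theorem qnm_nonneg {F : Type} [Field F] {a b : Fˣ} (w : F →+* ℂ) (x : Qt a b) :
    0 ≤ qnm w x := by
  unfold qnm
  positivity

theorem onm_nonneg {F : Type} [Field F] {a b c : Fˣ} (w : F →+* ℂ) (x : Oct a b c) :
    0 ≤ onm w x :=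
  add_nonneg (qnm_nonneg w _) (qnm_nonneg w _)

/-- If `S` is empty there is no proper subgroup of finite index. -/
theorem OpenAt.noIndex {F : Type} [Field F] {a b c : Fˣ} {S : (F →+* ℂ) → Prop}
    {G : Subgroup (Equiv.Perm (Oct a b c))} (h : OpenAt S G) (hS : ∀ w, ¬ S w) : NoIndex G := by
  intro N hN
  obtain ⟨ε, -, h1⟩ := h N hN
  rw [eq_top_iff]
  intro x _
  exact h1 x fun w hw => absurd hw (hS w)

end Vale.Agent.P011.D4H
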