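import Vale.Agent.P011.D4H.Hy

/-!
From the finite residual to the final statement; the embeddings over the noncompact real places.
-/

open Module NumberField

namespace Vale.Agent.P011.D4H

open Vale.Agent.P011.MPQ Vale.Agent.P011.D4 Vale.Agent.P011.D4.Oct Vale.Agent.P011.D4T
open scoped ComplexConjugate

section res

variable {k L E : Type} [Field k] [Field L] [Field E] [Algebra k L] [Algebra k E] [Algebra L E]
  [IsScalarTower k L E] {ρ σ : E ≃ₐ[k] E} {α : E} {a b c : kˣ} {q : Lˣ}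

/-- A subgroup of finite index contains the finite residual. -/
theorem mem_of_Rs {N : Subgroup (D4X.GT ρ σ α a b c q)} (hN : N.index ≠ 0)
    {x : D4X.GT ρ σ α a b c q} (hx : x.1 ∈ D4X.Rs ρ σ α a b c q) : x ∈ N := by
  obtain ⟨y, hy, hyx⟩ := hx
  have h2 : y = x := Subtype.ext hyx
  rw [← h2]
  exact (iInf_le (fun N : {N : Subgroup (D4X.GT ρ σ α a b c q) // N.index ≠ 0} => N.1)
    ⟨N, hN⟩) hy

/-- From the finite residual to the final statement. -/
theorem openAt_of_Rs {S : (E →+* ℂ) → Prop}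
    (h : ∃ ε : ℝ, 0 < ε ∧ ∀ g ∈ D4X.GT ρ σ α a b c q,
      (∀ w, S w → ∀ y, D4X.on w (g y - y) ≤ ε * D4X.on w y) → g ∈ D4X.Rs ρ σ α a b c q) :
    OpenAt S (TT ρ σ α (algebraMap L E (q : L)) a b c) := by
  obtain ⟨ε, h0, h1⟩ := h
  refine openAt_tx fun N hN => ⟨ε, h0, fun x hx => mem_of_Rs hN (h1 x.1 x.2 fun w hw y => ?_)⟩
  rw [on_eq, on_eq]
  exact hx w hw y

end res

section bad

variable {k E : Type} [Field k] [Field E] [Algebra k E] {ρ σ : E ≃ₐ[k] E} {q : E}

theorem BadT.comp_rho (h3 : ∀ x, ρ (ρ (ρ x)) = x) (hc : ∀ x, σ (ρ x) = ρ (σ x)) {w : E →+* ℂ}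
    (h : BadT ρ σ q w) : BadT ρ σ q (w.comp (ρ : E →+* E)) := by
  obtain ⟨h1, h2⟩ := h
  refine ⟨fun x => ?_, fun ⟨p1, p2, p3⟩ => h2 ⟨?_, p1, p2⟩⟩
  · change w (ρ (σ x)) = conj (w (ρ x))
    rw [← hc, h1]
  · have e : (w.comp (ρ : E →+* E)) (ρ (ρ q)) = w q := congrArg w (h3 q)
    rwa [e] at p3

theorem BadT.comp_sigma (hc : ∀ x, σ (ρ x) = ρ (σ x)) {w : E →+* ℂ}
    (h : BadT ρ σ q w) : BadT ρ σ q (w.comp (σ : E →+* E)) := by
  obtain ⟨h1, h2⟩ := h
  have e : ∀ x, (w.comp (σ : E →+* E)) x = conj (w x) := h1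
  refine ⟨fun x => ?_, fun ⟨p1, p2, p3⟩ => h2 ⟨?_, ?_, ?_⟩⟩
  · rw [e, e, h1]
  · rwa [e, Complex.conj_re] at p1
  · rwa [e, Complex.conj_re] at p2
  · rwa [e, Complex.conj_re] at p3

theorem badT_finite [NumberField E] : {w : E →+* ℂ | BadT ρ σ q w}.Finite :=
  Set.toFinite _

/-- A real embedding of the fixed field of `σ` at which `a` is negative extends to an embedding
which carries `σ` to the complex conjugation. -/
theorem exists_conj {L : Type} [Field L] [Algebra k L] [Algebra L E] [IsScalarTower k L E]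
    [Algebra.IsAlgebraic L E] {α : E} {a : kˣ} (hα : α * α = algebraMap k E a) (hσα : σ α = -α)
    (hσL : ∀ t : L, σ (algebraMap L E t) = algebraMap L E t) (h2 : (2 : E) ≠ 0)
    (σ2 : ∀ x, σ (σ x) = x) (hL : ∀ x, σ x = x → ∃ t : L, algebraMap L E t = x)
    (w : L →+* ℝ) (hw : w (algebraMap k L a) < 0) : ∃ W : E →+* ℂ,
      (∀ t, W (algebraMap L E t) = ((w t : ℝ) : ℂ)) ∧ ∀ x, W (σ x) = conj (W x) := by
  obtain ⟨W, hW⟩ := exists_lift (E := E) w
  have hα0 : α ≠ 0 := by
    rintro rfl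
    rw [mul_zero] at hα
    exact a.ne_zero ((map_eq_zero _).mp hα.symm)
  have hWa : W α * W α = ((w (algebraMap k L a) : ℝ) : ℂ) := by
    rw [← map_mul, hα, ← hW, ← IsScalarTower.algebraMap_apply]
  have hWα : conj (W α) = -W α := by
    have e1 : (W α).re * (W α).re - (W α).im * (W α).im = w (algebraMap k L a) := by
      have := congrArg Complex.re hWa
      rwa [Complex.mul_re, Complex.ofReal_re] at this
    have e2 : (W α).re * (W α).im + (W α).im * (W α).re = 0 := by
      have := congrArg Complex.im hWa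
      rwa [Complex.mul_im, Complex.ofReal_im] at this
    have e3 : (W α).re = 0 := by
      by_contra h0
      have e4 : (W α).re * (2 * (W α).im) = 0 := by linarith
      rcases mul_eq_zero.mp e4 with h | h
      · exact h0 h
      · have e5 : (W α).im = 0 := by linarith
        rw [e5] at e1
        nlinarith [mul_self_nonneg (W α).re]
    apply Complex.ext
    · rw [Complex.conj_re, Complex.neg_re, e3, neg_zero]
    · rw [Complex.conj_im, Complex.neg_im]
  refine ⟨W, hW, fun x => ?_⟩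
  have s2 : σ (2 : E) = 2 := map_ofNat σ 2
  obtain ⟨u, hu⟩ := hL ((x + σ x) / 2) (by rw [map_div₀, map_add, σ2, s2, add_comm])
  obtain ⟨v, hv⟩ := hL ((x - σ x) / (2 * α)) (by
    rw [map_div₀, map_sub, map_mul, σ2, s2, hσα]
    field_simp
    ring)
  have e1 : x = algebraMap L E u + algebraMap L E v * α := by
    rw [hu, hv]
    field_simp
    ring
  have e2 : σ x = algebraMap L E u - algebraMap L E v * α := by
    conv_lhs => rw [e1, map_add, map_mul, hσL, hσL, hσα]
    ring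
  rw [e2]
  conv_rhs => rw [e1]
  rw [map_sub, map_add, map_mul, hW, hW, map_add, map_mul, hWα, Complex.conj_ofReal,
    Complex.conj_ofReal]
  ring

end bad

end Vale.Agent.P011.D4H
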