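import Vale.Agent.P011.D4H.Br
import Vale.Agent.P011.D4X.Defs

/-!
The model attached to the data.
-/

open Module NumberField

namespace Vale.Agent.P011.D4H

open Vale.Agent.P011.MPQ Vale.Agent.P011.D4 Vale.Agent.P011.D4.Oct Vale.Agent.P011.D4T

section hom

variable {k L E : Type} [Field k] [Field L] [Field E] [Algebra k L] [Algebra k E] [Algebra L E]
  [IsScalarTower k L E] {ρ σ : E ≃ₐ[k] E} {α : E} {a b c : kˣ} {q : Lˣ}

theorem gt_eq : D4X.GT ρ σ α a b c q = D4T.GT ρ σ α a b c q := rfl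

/-- The statement for the permutations from the statement for the linear maps. -/
theorem openAt_tx {S : (E →+* ℂ) → Prop}
    (h : ∀ N : Subgroup (D4X.GT ρ σ α a b c q), N.index ≠ 0 → ∃ ε : ℝ, 0 < ε ∧
      ∀ x : D4X.GT ρ σ α a b c q,
        (∀ w, S w → ∀ y, onm w (x.1 y - y) ≤ ε * onm w y) → x ∈ N) :
    OpenAt S (TT ρ σ α (algebraMap L E (q : L)) a b c) :=
  openAt_tt h

end hom

variable {k E : Type} [Field k] [NumberField k] [Field E] [Algebra k E] {ρ σ : E ≃ₐ[k] E}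
  {α q : E} {a b c : kˣ}

/-- The model. -/
theorem IsDataR.hyX [NeZero (2 : E)] (H : IsDataR ρ σ α q a b c) :
    D4X.Hy (L := LL σ) ρ σ (rhoL H.comm H.ρ3) α a b c H.qL :=
  { h3 := H.h3
    h2 := H.h2
    ρ1 := H.rhoL_ne
    ρ3 := H.ρ3
    ρL' := fun _ => rfl
    σL := fun t => mem_LL.mp t.2
    σ2 := H.σ2
    comm := H.comm
    α2 := by
      rw [← pow_two]
      exact H.α2
    ρα := H.ρα
    σα := H.σα
    hq := Subtype.ext H.nq
    hdiv := H.div
    hcp := H.cptL'
    hre := fun w hw _ _ _ => H.defL w hw }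

end Vale.Agent.P011.D4H
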