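import Vale.Agent.P011.D4H.Fin
import Vale.Agent.P011.D4X.H69.NearGen

/-!
The set of the bad embeddings of the proofs and that of the final statement agree.
-/

open Module NumberField

namespace Vale.Agent.P011.D4H

open Vale.Agent.P011.MPQ Vale.Agent.P011.D4 Vale.Agent.P011.D4.Oct Vale.Agent.P011.D4T

variable {k L E : Type} [Field k] [Field L] [Field E] [Algebra k L] [Algebra k E] [Algebra L E]
  [IsScalarTower k L E] {ρ σ : E ≃ₐ[k] E} {α : E} {a b c : kˣ} {q : Lˣ}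

theorem mem_Bd_iff {w : E →+* ℂ} :
    w ∈ D4X.Bd ρ σ q ↔ BadT ρ σ (algebraMap L E (q : L)) w := Iff.rfl

/-- From the theorem on the linear maps to the final statement. -/
theorem openAt_of_Bd
    (h : ∃ ε : ℝ, 0 < ε ∧ ∀ g : OctL E a b c ≃ₗ[E] OctL E a b c, g ∈ D4X.GT ρ σ α a b c q →
      (∀ w ∈ D4X.Bd ρ σ q, ∀ y, D4X.on w (g y - y) ≤ ε * D4X.on w y) →
        g ∈ D4X.Rs ρ σ α a b c q) :
    OpenAt (BadT ρ σ (algebraMap L E (q : L))) (TT ρ σ α (algebraMap L E (q : L)) a b c) := by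
  obtain ⟨ε, h0, h1⟩ := h
  exact openAt_of_Rs ⟨ε, h0, fun g hg hw => h1 g hg hw⟩

end Vale.Agent.P011.D4H
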