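import Vale.Agent.P011.D4H.Defs
import Vale.Agent.P011.D4I.HDefs

/-!
Trialitarian groups of noncyclic cubic extensions: the data without conditions on the signs of `q`.
-/

open Module NumberField

namespace Vale.Agent.P011.D4H

open Vale.Agent.P011.MPQ Vale.Agent.P011.D4 Vale.Agent.P011.D4T Vale.Agent.P011.D4I

/-- The data: `L / k` is cubic and `E / L` has degree four, `ρ`, `σ`, `ι` are automorphisms of
`E / k` of orders three, two, two with `σ` central and `ι ρ = ρ² ι`, the field `L` is fixed by `σ`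
and by `ρ ι`, `α ^ 2 = a` with `ρ(α) = ι(α) = α` and `σ(α) = -α`, the element `q` of `L` has norm
one, the octonion algebra `(a, b, c)` over `k` is a division algebra, definite at all real places of
`k` where `a` is negative, and at one of them `q` is positive at the real places of `L`. -/
structure IsDataIR {k L E : Type} [Field k] [Field L] [Field E] [Algebra k L] [Algebra k E]
    [Algebra L E] [IsScalarTower k L E] (ρ σ ι : E ≃ₐ[k] E) (α : E) (a b c : kˣ) (q : Lˣ) :
    Prop where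
  L3 : finrank k L = 3
  E4 : finrank L E = 4
  ρ1 : ∃ x, ρ x ≠ x
  ρ3 : ∀ x, ρ (ρ (ρ x)) = x
  σ2 : ∀ x, σ (σ x) = x
  ι2 : ∀ x, ι (ι x) = x
  comm : ∀ x, σ (ρ x) = ρ (σ x)
  σι : ∀ x, σ (ι x) = ι (σ x)
  ιρ : ∀ x, ι (ρ x) = ρ (ρ (ι x))
  σL : ∀ t : L, σ (algebraMap L E t) = algebraMap L E t
  ριL : ∀ t : L, ρ (ι (algebraMap L E t)) = algebraMap L E t
  α2 : α ^ 2 = algebraMap k E a
  ρα : ρ α = α
  σα : σ α = -α
  ια : ι α = α
  nq : algebraMap L E (q : L) * ρ (algebraMap L E (q : L)) * ρ (ρ (algebraMap L E (q : L))) = 1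
  div : Oct.Division a b c
  hdef : ∀ τ : k →+* ℝ, τ a < 0 → τ b < 0 ∧ τ c < 0
  cpt : ∃ τ : k →+* ℝ, τ a < 0 ∧ ∀ w : L →+* ℝ, w.comp (algebraMap k L) = τ → 0 < w (q : L)

end Vale.Agent.P011.D4H
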