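import Vale.Agent.P011.D4H.YBr
import Vale.Agent.P011.D4Y.Defs

/-!
The model attached to the data of a noncyclic cubic extension.
-/

open Module NumberField

namespace Vale.Agent.P011.D4H

open Vale.Agent.P011.MPQ Vale.Agent.P011.D4 Vale.Agent.P011.D4.Oct Vale.Agent.P011.D4T

variable {k L E : Type} [Field k] [Field L] [Field E] [Algebra k L] [Algebra k E] [Algebra L E]
  [IsScalarTower k L E] {ρ σ ι : E ≃ₐ[k] E} {α : E} {a b c : kˣ} {q : Lˣ}

theorem gti_eq : D4Y.GTI ρ σ ι α a b c q = D4I.GTI ρ σ ι α a b c q := rfl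

theorem hodd_iff [NumberField k] [NumberField L] : D4Y.HOdd a q ↔ D4I.HOdd a q := Iff.rfl

/-- The statement for the permutations from the statement for the linear maps. -/
theorem openAt_ty {S : (E →+* ℂ) → Prop}
    (h : ∀ N : Subgroup (D4Y.GTI ρ σ ι α a b c q), N.index ≠ 0 → ∃ ε : ℝ, 0 < ε ∧
      ∀ x : D4Y.GTI ρ σ ι α a b c q,
        (∀ w, S w → ∀ y, onm w (x.1 y - y) ≤ ε * onm w y) → x ∈ N) :
    OpenAt S (D4I.TI ρ σ ι α (algebraMap L E (q : L)) a b c) :=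
  openAt_ti h

/-- A subgroup of finite index contains the finite residual. -/
theorem mem_of_RsI {N : Subgroup (D4Y.GTI ρ σ ι α a b c q)} (hN : N.index ≠ 0)
    {x : D4Y.GTI ρ σ ι α a b c q} (hx : x.1 ∈ D4Y.RsI ρ σ ι α a b c q) : x ∈ N := by
  obtain ⟨y, hy, hyx⟩ := hx
  have h2 : y = x := Subtype.ext hyx
  rw [← h2]
  exact (iInf_le (fun N : {N : Subgroup (D4Y.GTI ρ σ ι α a b c q) // N.index ≠ 0} => N.1)
    ⟨N, hN⟩) hy

/-- From the finite residual to the final statement. -/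
theorem openAt_of_RsI {S : (E →+* ℂ) → Prop}
    (h : ∃ ε : ℝ, 0 < ε ∧ ∀ g ∈ D4Y.GTI ρ σ ι α a b c q,
      (∀ w, S w → ∀ y, D4X.on w (g y - y) ≤ ε * D4X.on w y) → g ∈ D4Y.RsI ρ σ ι α a b c q) :
    OpenAt S (D4I.TI ρ σ ι α (algebraMap L E (q : L)) a b c) := by
  obtain ⟨ε, h0, h1⟩ := h
  refine openAt_ty fun N hN => ⟨ε, h0, fun x hx => mem_of_RsI hN (h1 x.1 x.2 fun w hw y => ?_)⟩
  rw [on_eq, on_eq]
  exact hx w hw y

/-- The model. -/
theorem IsDataIR.hyY [NeZero (2 : E)] (H : IsDataIR ρ σ ι α a b c q) :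
    D4Y.HyI ρ σ ι α a b c q where
  h3 := H.L3
  ρL := H.ρL
  ρ3 := H.ρ3
  σ2 := H.σ2
  ι2 := H.ι2
  comm := H.comm
  σι := H.σι
  ιρ := H.ιρ
  σL := H.σL
  ιL := fun t => by
    have h := congrArg (fun z => ρ (ρ z)) (H.ριL t)
    rwa [H.ρ3] at h
  fixL := H.fixL
  fixk := H.fixk
  α2 := by rw [← pow_two]; exact H.α2
  ρα := H.ρα
  σα := H.σα
  ια := H.ια
  hq := H.nq
  hdiv := H.div
  hcp := H.cpt
  hre := fun τ hτ _ => H.hdef τ hτ

end Vale.Agent.P011.D4H
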