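import Vale.Agent.P011.D4H.XOpen
import Vale.Agent.P011.D4Z.H862.Top

/-!
The final theorem on trialitarian groups of cyclic cubic extensions, for the group of permutations:
no proper subgroup of finite index, without a condition on the signs of `q`.
-/

open Module NumberField

namespace Vale.Agent.P011.D4H

open Vale.Agent.P011.MPQ Vale.Agent.P011.D4 Vale.Agent.P011.D4.Oct Vale.Agent.P011.D4T

/-- **Trialitarian groups of cyclic cubic extensions with nontrivial Tits class** have no proper
subgroup of finite index, without a condition on the signs of `q`. -/
theorem tt_noIndex {k E : Type} [Field k] [NumberField k] [Field E] [Algebra k E]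
    {ρ σ : E ≃ₐ[k] E} {α q : E} {a b c : kˣ} (H : IsDataR ρ σ α q a b c) :
    NoIndex (TT ρ σ α q a b c) := by
  have hfin := H.finite
  have hE : NumberField E := NumberField.of_module_finite k E
  have hL : NumberField (LL σ) := NumberField.of_module_finite k (LL σ)
  have h2 : NeZero (2 : E) := ⟨two_ne_zero⟩
  exact (openAt_of_Rs (L := LL σ) (q := H.qL) (S := fun _ => False)
    ⟨1, one_pos, fun g hg _ => D4Z.gt_top H.hyX H.defL hg⟩).noIndex fun _ h => h

end Vale.Agent.P011.D4H
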